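import Mathlib

/-!
Combinatorial core for crossing lower bounds of separated monotone drawings of complete bipartite
graphs: a cut inequality, its circle-distance consequence, and the tournament bound.
-/

namespace Vale.Agent.P040

open Finset

/-- Indicator as an integer. -/
def ind (p : Bool) : ℤ := if p then 1 else 0

/-- `1` if the two bits differ. -/
def neq (a b : Bool) : ℤ := ind (a != b)

/-- Number of ordered pairs `i < j` cut by `(h, g)`. -/
def cutPairs (M : ℕ) (h g : Fin M → Bool) : ℤ :=
  ∑ i, ∑ j, if i < j then neq (h i) (g j) else 0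

/-- Weighted number of positions cut by `(h, g)`. -/
def cutDiag (M : ℕ) (h g : Fin M → Bool) : ℤ :=
  ∑ i : Fin M, (min i.val (M - 1 - i.val) : ℕ) * neq (h i) (g i)

/-- Contribution of position `j` to the gain of deleting position `x`. -/
def gainAt (M : ℕ) (h g : Fin (M + 1) → Bool) (x j : Fin (M + 1)) : ℤ :=
  if j < x then neq (h j) (g x) - (if M ≤ 2 * j.val then neq (h j) (g j) else 0)
  else if x < j then neq (h x) (g j) - (if 2 * j.val ≤ M then neq (h j) (g j) else 0)
  else -((min x.val (M - x.val) : ℕ) : ℤ) * neq (h x) (g x)

/-- Gain of deleting position `x`. -/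
def gain (M : ℕ) (h g : Fin (M + 1) → Bool) (x : Fin (M + 1)) : ℤ := ∑ j, gainAt M h g x j

theorem min_drop {M : ℕ} (x : Fin (M + 1)) (i : Fin M) :
    ((min i.val (M - 1 - i.val) : ℕ) : ℤ) =
      ((min (x.succAbove i).val (M - (x.succAbove i).val) : ℕ) : ℤ) -
        (if x.succAbove i < x then (if M ≤ 2 * (x.succAbove i).val then 1 else 0)
         else (if 2 * (x.succAbove i).val ≤ M then 1 else 0)) := by
  rcases lt_or_ge i.castSucc x with hlt | hge
  · rw [Fin.succAbove_of_castSucc_lt _ _ hlt]
    simp only [hlt, if_true, Fin.val_castSucc]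
    have := i.isLt
    split_ifs <;> omega
  · rw [Fin.succAbove_of_le_castSucc _ _ hge]
    have hn : ¬ i.succ < x := not_lt.2 (le_trans hge (le_of_lt Fin.castSucc_lt_succ))
    simp only [hn, if_false, Fin.val_succ]
    have := i.isLt
    split_ifs <;> omega

theorem cut_split (M : ℕ) (h g : Fin (M + 1) → Bool) (x : Fin (M + 1)) :
    cutPairs (M + 1) h g - cutDiag (M + 1) h g =
      cutPairs M (fun i => h (x.succAbove i)) (fun i => g (x.succAbove i)) -
        cutDiag M (fun i => h (x.succAbove i)) (fun i => g (x.succAbove i)) + gain M h g x := by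
  unfold cutPairs cutDiag gain
  simp only [Fin.sum_univ_succAbove _ x, lt_irrefl, if_false, zero_add, gainAt,
    Fin.succAbove_lt_succAbove_iff, Nat.add_sub_cancel, Finset.sum_add_distrib]
  have key : ∀ i : Fin M,
      (if x < x.succAbove i then neq (h x) (g (x.succAbove i)) else 0) +
        (if x.succAbove i < x then neq (h (x.succAbove i)) (g x) else 0) -
        ((min (x.succAbove i).val (M - (x.succAbove i).val) : ℕ) : ℤ) *
          neq (h (x.succAbove i)) (g (x.succAbove i)) =
      -(((min i.val (M - 1 - i.val) : ℕ) : ℤ) *
          neq (h (x.succAbove i)) (g (x.succAbove i))) +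
        (if x.succAbove i < x then neq (h (x.succAbove i)) (g x) -
            (if M ≤ 2 * (x.succAbove i).val then neq (h (x.succAbove i)) (g (x.succAbove i)) else 0)
          else if x < x.succAbove i then neq (h x) (g (x.succAbove i)) -
            (if 2 * (x.succAbove i).val ≤ M then neq (h (x.succAbove i)) (g (x.succAbove i)) else 0)
          else -((min x.val (M - x.val) : ℕ) : ℤ) * neq (h x) (g x)) := by
    intro i
    rw [min_drop x i]
    rcases lt_or_gt_of_ne (Fin.succAbove_ne x i) with hlt | hgt
    · rw [if_neg hlt.not_gt, if_pos hlt, if_pos hlt, if_pos hlt]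
      split_ifs <;> ring
    · rw [if_pos hgt, if_neg hgt.not_gt, if_neg hgt.not_gt, if_neg hgt.not_gt, if_pos hgt]
      split_ifs <;> ring
  have := Finset.sum_congr rfl (fun i (_ : i ∈ (univ : Finset (Fin M))) => key i)
  simp only [Finset.sum_add_distrib, Finset.sum_sub_distrib, Finset.sum_neg_distrib] at this
  linarith

theorem neq_not (a b : Bool) : neq (!a) (!b) = neq a b := by
  cases a <;> cases b <;> rfl

theorem gain_not (M : ℕ) (h g : Fin (M + 1) → Bool) (x : Fin (M + 1)) :
    gain M (fun i => !h i) (fun i => !g i) x = gain M h g x := by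
  simp only [gain, gainAt, neq_not]

theorem exists_gain_nonneg_of_middle (M : ℕ) (h g : Fin (M + 1) → Bool)
    (hc : h ⟨M / 2, by omega⟩ = false) (gc : g ⟨M / 2, by omega⟩ = true) :
    ∃ x, 0 ≤ gain M h g x := by
  by_contra hall
  push Not at hall
  set c : Fin (M + 1) := ⟨M / 2, by omega⟩ with hcdef
  have hcv : c.val = M / 2 := rfl
  -- no position of the opposite type
  have noN : ∀ y, h y = true → g y = false → False := by
    intro y hy gy
    have hyc : y ≠ c := fun e => by rw [e, hc] at hy; exact Bool.noConfusion hy
    rcases lt_or_gt_of_ne hyc with hlt | hgt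
    · have hv : y.val < M / 2 := hlt
      have hj : ∀ j : Fin (M + 1),
          (if j < y then (1 : ℤ) else 0) + (if c < j then 1 else 0) -
            (if j = c then ((c.val : ℤ) + 1) else 0) - (if j = y then (y.val : ℤ) else 0) ≤
            gainAt M h g y j + gainAt M h g c j := by
        intro j
        simp only [gainAt]
        rcases lt_trichotomy j y with h1 | h1 | h1
        · have h2 : j < c := lt_trans h1 hlt
          have e : ¬ M ≤ 2 * j.val := by
            have : j.val < y.val := h1
            omega
          simp only [if_pos h1, if_pos h2, if_neg e, if_neg h2.not_gt, if_neg h2.ne, if_neg h1.ne,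
            gy, gc]
          cases h j <;> simp [neq, ind]
        · subst h1
          have e1 : min j.val (M - j.val) = j.val := by omega
          have e : ¬ M ≤ 2 * j.val := by omega
          simp only [lt_irrefl, if_false, if_pos hlt, if_neg hlt.not_gt, if_neg hyc, e, e1,
            if_true, hy, gy, gc]
          simp [neq, ind]
        · rcases lt_trichotomy j c with h2 | h2 | h2
          · have : j.val < M / 2 := h2
            have e : 2 * j.val ≤ M := by omega
            have e2 : ¬ M ≤ 2 * j.val := by omega
            simp only [if_neg h1.not_gt, if_pos h1, if_pos h2, if_neg h2.not_gt, if_neg h2.ne,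
              if_neg h1.ne', e, e2, if_true, if_false, hy, gc]
            cases h j <;> cases g j <;> simp [neq, ind]
          · subst h2
            have e1 : min c.val (M - c.val) = c.val := by rw [hcv]; omega
            have e : 2 * c.val ≤ M := by rw [hcv]; omega
            simp only [lt_irrefl, if_false, if_neg h1.not_gt, if_pos h1, if_neg h1.ne', e1, e,
              if_true, hy, hc, gc]
            simp [neq, ind]
          · have : M / 2 < j.val := h2
            have e : ¬ 2 * j.val ≤ M := by omega
            simp only [if_neg h1.not_gt, if_pos h1, if_neg h2.not_gt, if_pos h2, if_neg h2.ne',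
              if_neg h1.ne', e, if_false, hy, hc]
            cases g j <;> simp [neq, ind]
      have := Finset.sum_le_sum (s := univ) (fun j _ => hj j)
      simp only [Finset.sum_add_distrib, Finset.sum_sub_distrib, Finset.sum_ite_eq',
        Finset.mem_univ, if_true, Finset.sum_boole] at this
      have h1 := hall y
      have h2 := hall c
      simp only [gain] at h1 h2
      rw [show (univ.filter fun j => j < y) = Iio y from by ext; simp,
        show (univ.filter fun j => c < j) = Ioi c from by ext; simp, Fin.card_Iio, Fin.card_Ioi]
        at this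
      omega
    · have hv : M / 2 < y.val := hgt
      have hj : ∀ j : Fin (M + 1),
          (if j < c then (1 : ℤ) else 0) + (if y < j then 1 else 0) -
            (if j = c then ((c.val : ℤ) + 1) else 0) -
            (if j = y then ((M - y.val : ℕ) : ℤ) else 0) ≤
            gainAt M h g c j + gainAt M h g y j := by
        intro j
        simp only [gainAt]
        rcases lt_trichotomy j c with h1 | h1 | h1
        · have h2 : j < y := lt_trans h1 hgt
          have e : ¬ M ≤ 2 * j.val := by
            have : j.val < M / 2 := h1
            omega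
          simp only [if_pos h1, if_pos h2, if_neg e, if_neg h2.not_gt, if_neg h2.ne, if_neg h1.ne,
            gy, gc]
          cases h j <;> simp [neq, ind]
        · subst h1
          have e1 : min c.val (M - c.val) = c.val := by rw [hcv]; omega
          simp only [lt_irrefl, if_false, if_pos hgt, if_neg hgt.not_gt, if_neg hyc.symm, e1,
            if_true, hc, gy, gc]
          split_ifs <;> simp [neq, ind]
        · have hj' : M / 2 < j.val := h1
          rcases lt_trichotomy j y with h2 | h2 | h2
          · have e : ¬ 2 * j.val ≤ M := by omega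
            have e2 : M ≤ 2 * j.val := by omega
            simp only [if_neg h1.not_gt, if_pos h1, if_pos h2, if_neg h2.not_gt, if_neg h2.ne,
              if_neg h1.ne', e, e2, if_true, if_false, hc, gy]
            cases h j <;> cases g j <;> simp [neq, ind]
          · subst h2
            have e1 : min j.val (M - j.val) = M - j.val := by omega
            have e : ¬ 2 * j.val ≤ M := by omega
            simp only [lt_irrefl, if_false, if_neg h1.not_gt, if_pos h1, if_neg h1.ne', e1, e,
              if_true, hy, hc, gy]
            simp [neq, ind]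
          · have e : ¬ 2 * j.val ≤ M := by omega
            simp only [if_neg h1.not_gt, if_pos h1, if_neg h2.not_gt, if_pos h2, if_neg h2.ne',
              if_neg h1.ne', e, if_false, hy, hc]
            cases g j <;> simp [neq, ind]
      have := Finset.sum_le_sum (s := univ) (fun j _ => hj j)
      simp only [Finset.sum_add_distrib, Finset.sum_sub_distrib, Finset.sum_ite_eq',
        Finset.mem_univ, if_true, Finset.sum_boole] at this
      have h1 := hall y
      have h2 := hall c
      simp only [gain] at h1 h2
      rw [show (univ.filter fun j => j < c) = Iio c from by ext; simp,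
        show (univ.filter fun j => y < j) = Ioi y from by ext; simp, Fin.card_Iio, Fin.card_Ioi]
        at this
      omega
  rcases Nat.lt_or_ge M 2 with hsmall | hbig
  · have h2 := hall c
    apply absurd h2
    rw [not_lt]
    refine Finset.sum_nonneg fun j _ => ?_
    have := j.isLt
    simp only [gainAt]
    split_ifs with a b d e
    all_goals try (have : j.val < c.val := a; omega)
    all_goals try (simp [neq, ind]; done)
    · have : c.val < j.val := d
      omega
    · simp only [hc, neq, ind]
      split_ifs <;> omega
    · have e1 : min c.val (M - c.val) = 0 := by omega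
      simp [e1]
  have h0 : h 0 = true := by
    cases hh : h 0
    · exfalso
      have h1 := hall 0
      have hj : ∀ j : Fin (M + 1), 0 ≤ gainAt M h g 0 j := by
        intro j
        simp only [gainAt, Fin.not_lt_zero, if_false]
        split_ifs with a b
        · rw [hh]
          cases hj' : h j <;> cases gj' : g j <;> simp [neq, ind]
          exact noN j hj' gj'
        · rw [hh]; cases g j <;> simp [neq, ind]
        · simp
      exact absurd h1 (not_lt.2 (Finset.sum_nonneg fun j _ => hj j))
    · rfl
  have g0 : g 0 = true := by
    cases hh : g 0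
    · exact (noN 0 h0 hh).elim
    · rfl
  set l : Fin (M + 1) := Fin.last M with hldef
  have gl : g l = false := by
    cases hh : g l
    · rfl
    · exfalso
      have h1 := hall l
      have hj : ∀ j : Fin (M + 1), 0 ≤ gainAt M h g l j := by
        intro j
        have hjl : j ≤ l := Fin.le_last j
        simp only [gainAt]
        split_ifs with a b c d
        · rw [hh]
          cases hj' : h j <;> cases gj' : g j <;> simp [neq, ind]
          exact noN j hj' gj'
        · rw [hh]; cases h j <;> simp [neq, ind]
        · exact absurd c (not_lt.2 hjl)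
        · exact absurd c (not_lt.2 hjl)
        · simp [hldef]
      exact absurd h1 (not_lt.2 (Finset.sum_nonneg fun j _ => hj j))
  have hl : h l = false := by
    cases hh : h l
    · rfl
    · exact (noN l hh gl).elim
  have hlv : l.val = M := rfl
  have hc0 : (0 : Fin (M + 1)) < c := by
    show (0 : ℕ) < M / 2
    omega
  have hcl : c < l := by
    show M / 2 < M
    omega
  have hj : ∀ j : Fin (M + 1),
      1 - (if j = c then (3 : ℤ) + 2 * c.val else 0) ≤
        gainAt M h g 0 j + gainAt M h g l j + 2 * gainAt M h g c j := by
    intro j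
    simp only [gainAt]
    rcases eq_or_ne j 0 with rfl | hj0
    · have e : ¬ M ≤ 2 * (0 : Fin (M + 1)).val := by simp; omega
      simp only [lt_irrefl, if_false, if_pos (lt_trans hc0 hcl), if_pos hc0, if_neg e,
        if_neg hc0.ne, h0, g0, gl, gc]
      simp [neq, ind]
    rcases eq_or_ne j l with rfl | hjl
    · have e : ¬ 2 * l.val ≤ M := by omega
      simp only [lt_irrefl, if_false, if_neg (lt_trans hc0 hcl).not_gt,
        if_pos (lt_trans hc0 hcl), if_neg hcl.not_gt, if_pos hcl, if_neg hcl.ne', if_neg e, h0,
        hl, gl, hc, hlv]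
      simp [neq, ind]
    have h0j : 0 < j := Fin.pos_iff_ne_zero.2 hj0
    have hjl' : j < l := lt_of_le_of_ne (Fin.le_last j) hjl
    simp only [if_neg h0j.not_gt, if_pos h0j, if_pos hjl', h0, gl]
    rcases lt_trichotomy j c with h1 | h1 | h1
    · have : j.val < M / 2 := h1
      have e : 2 * j.val ≤ M := by omega
      have e2 : ¬ M ≤ 2 * j.val := by omega
      simp only [if_pos h1, if_neg h1.ne, e, e2, if_true, if_false, gc]
      cases hj' : h j <;> cases gj' : g j <;> simp [neq, ind]
    · subst h1
      have e1 : min c.val (M - c.val) = c.val := by rw [hcv]; omega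
      simp only [lt_irrefl, if_false, if_true, e1, hc, gc]
      split_ifs <;> simp [neq, ind] <;> omega
    · have : M / 2 < j.val := h1
      have e : ¬ 2 * j.val ≤ M := by omega
      have e2 : M ≤ 2 * j.val := by omega
      simp only [if_neg h1.not_gt, if_pos h1, if_neg h1.ne', e, e2, if_true, if_false, hc]
      cases hj' : h j <;> cases gj' : g j <;> simp [neq, ind]
  have := Finset.sum_le_sum (s := univ) (fun j _ => hj j)
  simp only [Finset.sum_add_distrib, Finset.sum_sub_distrib, Finset.sum_ite_eq', Finset.mem_univ,
    if_true, ← Finset.mul_sum, Finset.sum_const, card_univ, Fintype.card_fin, nsmul_eq_mul] at this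
  have a := hall 0
  have b := hall l
  have d := hall c
  simp only [gain] at a b d
  push_cast at this
  omega

theorem exists_gain_nonneg (M : ℕ) (h g : Fin (M + 1) → Bool) : ∃ x, 0 ≤ gain M h g x := by
  by_cases hd : h ⟨M / 2, by omega⟩ = g ⟨M / 2, by omega⟩
  · refine ⟨⟨M / 2, by omega⟩, Finset.sum_nonneg fun j _ => ?_⟩
    simp only [gainAt]
    split_ifs with a b c d
    · have : j.val < M / 2 := a
      omega
    · simp only [neq, ind]; split_ifs <;> omega
    · have : M / 2 < j.val := c
      omega
    · simp only [neq, ind]; split_ifs <;> omega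
    · simp only [neq, hd, ind]
      simp
  · cases hc : h ⟨M / 2, by omega⟩
    · exact exists_gain_nonneg_of_middle M h g hc (by simpa [hc] using hd)
    · obtain ⟨x, hx⟩ := exists_gain_nonneg_of_middle M (fun i => !h i) (fun i => !g i)
        (by simp [hc]) (by simpa [hc] using hd)
      exact ⟨x, by rwa [gain_not] at hx⟩

theorem cut_inequality : ∀ (M : ℕ) (h g : Fin M → Bool), cutDiag M h g ≤ cutPairs M h g
  | 0, h, g => by simp [cutDiag, cutPairs]
  | M + 1, h, g => by
    obtain ⟨x, hx⟩ := exists_gain_nonneg M h g
    have h1 := cut_split M h g x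
    have h2 := cut_inequality M (fun i => h (x.succAbove i)) (fun i => g (x.succAbove i))
    linarith

/-- Distance to the nearer end of `[0, N]`. -/
def endDist (N c : ℕ) : ℕ := min c (N - c)

/-- The semicircular cuts of the circle of length `2N`. -/
def arc (N s x : ℕ) : Bool := decide (s < 2 * x ∧ 2 * x ≤ s + N)

theorem sum_arc (N P Q : ℕ) (hPQ : P ≤ Q) (hQ : Q ≤ N) :
    ∑ s ∈ range N, neq (arc N s P) (arc N s Q) = 2 * (endDist N (Q - P) : ℤ) := by
  have e : ∀ s, neq (arc N s P) (arc N s Q) =
      (if s < 2 * P ∧ 2 * P ≤ s + N then 1 else 0) +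
      (if s < 2 * Q ∧ 2 * Q ≤ s + N then 1 else 0) -
      2 * (if (s < 2 * P ∧ 2 * P ≤ s + N) ∧ (s < 2 * Q ∧ 2 * Q ≤ s + N) then 1 else 0) := by
    intro s
    simp only [arc, neq, ind]
    by_cases h1 : s < 2 * P ∧ 2 * P ≤ s + N <;> by_cases h2 : s < 2 * Q ∧ 2 * Q ≤ s + N <;>
      simp [h1, h2]
  simp only [e, Finset.sum_sub_distrib, Finset.sum_add_distrib, ← Finset.mul_sum, Finset.sum_boole]
  have f1 : ∀ x, (range N).filter (fun s => s < 2 * x ∧ 2 * x ≤ s + N) =
      Ico (2 * x - N) (min (2 * x) N) := by
    intro x
    ext s
    simp only [mem_filter, mem_range, mem_Ico]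
    omega
  have f2 : (range N).filter (fun s => (s < 2 * P ∧ 2 * P ≤ s + N) ∧ (s < 2 * Q ∧ 2 * Q ≤ s + N)) =
      Ico (2 * Q - N) (min (2 * P) N) := by
    ext s
    simp only [mem_filter, mem_range, mem_Ico]
    omega
  rw [f1, f1, f2, Nat.card_Ico, Nat.card_Ico, Nat.card_Ico, endDist]
  omega

/-- The weighted diagonal is at most the off-diagonal sum for end distances. -/
theorem endDist_inequality (m a b N : ℕ) (hab : a + b = N) (A B : Fin m → ℕ)
    (hA : ∀ i, A i ≤ a) (hB : ∀ i, B i ≤ b) :
    ∑ i : Fin m, min i.val (m - 1 - i.val) * endDist N (A i + B i) ≤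
      ∑ i : Fin m, ∑ j : Fin m, if i < j then endDist N (A i + B j) else 0 := by
  have dist : ∀ i j : Fin m, (2 : ℤ) * endDist N (A i + B j) =
      ∑ s ∈ range N, neq (arc N s (A i)) (arc N s (N - B j)) := by
    intro i j
    have := hA i
    have := hB j
    rw [sum_arc N (A i) (N - B j) (by omega) (by omega), endDist, endDist]
    omega
  have key := Finset.sum_le_sum (s := range N)
    (fun s _ => cut_inequality m (fun i => arc N s (A i)) (fun i => arc N s (N - B i)))
  simp only [cutDiag, cutPairs] at key
  rw [Finset.sum_comm] at key
  conv_rhs at key => rw [Finset.sum_comm]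
  simp only [← Finset.mul_sum, ← dist] at key
  have conv2 : ∀ i : Fin m, (∑ s ∈ range N, ∑ j : Fin m,
      if i < j then neq (arc N s (A i)) (arc N s (N - B j)) else 0) =
      ∑ j : Fin m, if i < j then (2 : ℤ) * endDist N (A i + B j) else 0 := by
    intro i
    rw [Finset.sum_comm]
    refine Finset.sum_congr rfl fun j _ => ?_
    by_cases h : i < j <;> simp [h, dist]
  simp only [conv2] at key
  zify
  have l : ∑ i : Fin m, ((min i.val (m - 1 - i.val) : ℕ) : ℤ) * (2 * endDist N (A i + B i)) =
      2 * ∑ i : Fin m, ((min i.val (m - 1 - i.val) : ℕ) : ℤ) * endDist N (A i + B i) := by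
    rw [Finset.mul_sum]
    exact Finset.sum_congr rfl fun i _ => by ring
  have r : (∑ i : Fin m, ∑ j : Fin m, if i < j then (2 : ℤ) * endDist N (A i + B j) else 0) =
      2 * ∑ i : Fin m, ∑ j : Fin m, ((if i < j then endDist N (A i + B j) else 0 : ℕ) : ℤ) := by
    simp only [Finset.mul_sum]
    refine Finset.sum_congr rfl fun i _ => Finset.sum_congr rfl fun j _ => ?_
    by_cases h : i < j <;> simp [h]
  rw [l, r] at key
  push_cast at key ⊢
  linarith

theorem sum_min_end : ∀ m : ℕ,
    ∑ i ∈ range m, min i (m - 1 - i) = m / 2 * ((m - 1) / 2)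
  | 0 => by simp
  | 1 => by simp
  | m + 2 => by
    have ih := sum_min_end m
    rw [Finset.sum_range_succ, Finset.sum_range_succ']
    have e : ∑ k ∈ range m, min (k + 1) (m + 2 - 1 - (k + 1)) =
        ∑ k ∈ range m, (min k (m - 1 - k) + 1) :=
      Finset.sum_congr rfl fun k hk => by rw [mem_range] at hk; omega
    rw [e, Finset.sum_add_distrib, ih, Finset.sum_const, card_range]
    simp only [smul_eq_mul, mul_one, Nat.zero_le, min_eq_left]
    rcases Nat.even_or_odd' m with ⟨k, rfl | rfl⟩
    · rcases k with _ | k
      · simp
      · rw [show (2 * (k + 1) + 2) / 2 = k + 2 from by omega,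
          show (2 * (k + 1) + 2 - 1) / 2 = k + 1 from by omega,
          show (2 * (k + 1)) / 2 = k + 1 from by omega,
          show (2 * (k + 1) - 1) / 2 = k from by omega]
        rw [show min (2 * (k + 1) + 1) (2 * (k + 1) + 2 - 1 - (2 * (k + 1) + 1)) = 0 from by omega]
        ring
    · rw [show (2 * k + 1 + 2) / 2 = k + 1 from by omega,
        show (2 * k + 1 + 2 - 1) / 2 = k + 1 from by omega,
        show (2 * k + 1) / 2 = k from by omega,
        show (2 * k + 1 - 1) / 2 = k from by omega]
      rw [show min (2 * k + 1 + 1) (2 * k + 1 + 2 - 1 - (2 * k + 1 + 1)) = 0 from by omega]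
      ring

theorem sum_min_end_fin (m : ℕ) :
    ∑ i : Fin m, min i.val (m - 1 - i.val) = m / 2 * ((m - 1) / 2) := by
  rw [Fin.sum_univ_eq_sum_range (fun i => min i (m - 1 - i)), sum_min_end]

/-- Outdegree in an orientation. -/
def outDeg {n : ℕ} (out : Fin n → Fin n → Bool) (q : Fin n) : ℕ :=
  ((univ.erase q).filter fun r => out q r = true).card

/-- Every tournament has end-distance sum at least that of the transitive one. -/
theorem tournament_bound {n : ℕ} (out : Fin n → Fin n → Bool)
    (anti : ∀ q r, q ≠ r → out r q = !out q r) :
    n / 2 * ((n - 1) / 2) ≤ ∑ q, endDist (n - 1) (outDeg out q) := by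
  classical
  set S : Finset (Fin n) := univ.filter fun q => outDeg out q ≤ n - 1 - outDeg out q with hS
  have e : ∀ q, (endDist (n - 1) (outDeg out q) : ℤ) =
      ∑ r, if q = r then 0 else ind (if q ∈ S then out q r else !out q r) := by
    intro q
    have h1 : (univ.filter fun r => ¬ q = r ∧ out q r = true).card = outDeg out q := by
      unfold outDeg
      congr 1
      ext r
      simp [@eq_comm _ q r]
    have h2 : (univ.filter fun r => ¬ q = r ∧ out q r = false).card =
        n - 1 - outDeg out q := by
      have := Finset.card_filter_add_card_filter_not (s := (univ : Finset (Fin n)).erase q)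
        (fun r => out q r = true)
      rw [card_erase_of_mem (mem_univ q), card_univ, Fintype.card_fin] at this
      have h3 : (univ.filter fun r => ¬ q = r ∧ out q r = false) =
          (univ.erase q).filter fun r => ¬ out q r = true := by
        ext r
        simp [@eq_comm _ q r]
      rw [h3]
      have : (univ.erase q).card = n - 1 := by simp
      unfold outDeg at *
      omega
    by_cases hq : q ∈ S
    · have := (Finset.mem_filter.1 hq).2
      rw [endDist, min_eq_left this, ← h1, ← Finset.sum_boole]
      push_cast
      refine Finset.sum_congr rfl fun r _ => ?_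
      by_cases hqr : q = r <;> simp [hqr, hq, ind]
    · have : ¬ outDeg out q ≤ n - 1 - outDeg out q := by simpa [hS] using hq
      rw [endDist, min_eq_right (le_of_not_ge this), ← h2, ← Finset.sum_boole]
      push_cast
      refine Finset.sum_congr rfl fun r _ => ?_
      by_cases hqr : q = r
      · simp [hqr]
      · cases hv : out q r <;> simp [hqr, hq, hv, ind]
  have two : ∑ q, ∑ r, ((if q = r then 0 else if (q ∈ S ↔ r ∈ S) then 1 else 0 : ℤ)) ≤
      2 * ∑ q, (endDist (n - 1) (outDeg out q) : ℤ) := by
    simp only [e]
    rw [two_mul]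
    conv_rhs => arg 2; rw [Finset.sum_comm]
    simp only [← Finset.sum_add_distrib]
    refine Finset.sum_le_sum fun q _ => Finset.sum_le_sum fun r _ => ?_
    by_cases hqr : q = r
    · simp [hqr]
    · simp only [hqr, Ne.symm hqr, if_false, anti q r hqr, ind]
      by_cases hq : q ∈ S <;> by_cases hr : r ∈ S <;> cases out q r <;> simp [hq, hr]
  have cnt : ∑ q, ∑ r, ((if q = r then 0 else if (q ∈ S ↔ r ∈ S) then 1 else 0 : ℤ)) =
      (S.card : ℤ) * S.card + ((n : ℤ) - S.card) * ((n : ℤ) - S.card) - n := by
    have hrow : ∀ q, ∑ r, ((if q = r then 0 else if (q ∈ S ↔ r ∈ S) then 1 else 0 : ℤ)) =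
        (if q ∈ S then (S.card : ℤ) else (n : ℤ) - S.card) - 1 := by
      intro q
      have : ∑ r, ((if q = r then 0 else if (q ∈ S ↔ r ∈ S) then 1 else 0 : ℤ)) =
          ∑ r, ((if q ∈ S then (if r ∈ S then (1 : ℤ) else 0) else 1 - (if r ∈ S then 1 else 0)) -
            (if q = r then 1 else 0)) := by
        refine Finset.sum_congr rfl fun r _ => ?_
        by_cases hqr : q = r
        · subst hqr; by_cases hq : q ∈ S <;> simp [hq]
        · by_cases hq : q ∈ S <;> by_cases hr : r ∈ S <;> simp [hqr, hq, hr]
      rw [this, Finset.sum_sub_distrib]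
      by_cases hq : q ∈ S <;> simp [hq]
    simp only [hrow, Finset.sum_sub_distrib]
    rw [Finset.sum_ite]
    simp [Finset.filter_not, Finset.card_univ_sdiff, Nat.cast_sub (card_finset_fin_le S)]
    ring
  rw [cnt] at two
  rcases Nat.even_or_odd' n with ⟨k, hk | hk⟩
  · rcases k with _ | k
    · subst hk; simp
    · rw [show n / 2 = k + 1 from by omega, show (n - 1) / 2 = k from by omega]
      have hn : (n : ℤ) = 2 * ((k : ℤ) + 1) := by exact_mod_cast hk
      rw [hn] at two
      zify
      nlinarith [sq_nonneg ((S.card : ℤ) - ((k : ℤ) + 1))]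
  · rw [show n / 2 = k from by omega, show (n - 1) / 2 = k from by omega]
    have hn : (n : ℤ) = 2 * (k : ℤ) + 1 := by exact_mod_cast hk
    rw [hn] at two
    have h1 : 0 ≤ ((S.card : ℤ) - k) * ((S.card : ℤ) - k - 1) := by
      rcases le_or_gt (S.card : ℤ) k with h | h
      · exact mul_nonneg_of_nonpos_of_nonpos (by linarith) (by linarith)
      · exact mul_nonneg (by linarith) (by linarith)
    zify
    nlinarith

/-- Number of `r < q` with `P r`. -/
def countBefore {n : ℕ} (P : Fin n → Bool) (q : Fin n) : ℕ :=
  ((univ.erase q).filter fun r => r < q ∧ P r = true).card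

/-- Number of `r > q` with `P r` false. -/
def countAfter {n : ℕ} (P : Fin n → Bool) (q : Fin n) : ℕ :=
  ((univ.erase q).filter fun r => q < r ∧ P r = false).card

/-- Vertical order at the right end of the edges `(i, q)` and `(j, r)`. -/
def rightBit {m n : ℕ} (v : Fin m → Fin n → Fin n → Bool) (i j : Fin m) (q r : Fin n) : Bool :=
  if r < q then v i r q else !v j q r

/-- The parity lower bound for separated monotone drawings. -/
theorem parity_bound {m n : ℕ} (u : Fin m → Fin m → Fin n → Bool)
    (v : Fin m → Fin n → Fin n → Bool) :
    m / 2 * ((m - 1) / 2) * (n / 2 * ((n - 1) / 2)) ≤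
      ∑ i : Fin m, ∑ j : Fin m, if i < j then
        ∑ q, ((univ.erase q).filter fun r => u i j q ≠ rightBit v i j q r).card else 0 := by
  set A : Fin n → Fin m → ℕ := fun q i => countBefore (fun r => v i r q) q with hAdef
  set B : Fin n → Fin m → ℕ := fun q j => countAfter (fun r => v j q r) q with hBdef
  have hcount : ∀ i j q,
      ((univ.erase q).filter fun r => rightBit v i j q r = true).card = A q i + B q j := by
    intro i j q
    rw [hAdef, hBdef]
    simp only [countBefore, countAfter]
    rw [← card_union_of_disjoint]
    · congr 1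
      ext r
      simp only [mem_filter, mem_erase, mem_univ, and_true, mem_union, rightBit]
      rcases lt_trichotomy r q with h | h | h
      · simp [h, h.ne, h.not_gt]
      · simp [h]
      · simp [h, h.ne', h.not_gt]
    · rw [disjoint_filter]
      intro r _ h1 h2
      exact lt_asymm h1.1 h2.1
  have hlow : ∀ i j q, endDist (n - 1) (A q i + B q j) ≤
      ((univ.erase q).filter fun r => u i j q ≠ rightBit v i j q r).card := by
    intro i j q
    have ht := hcount i j q
    have hsum := Finset.card_filter_add_card_filter_not (s := (univ : Finset (Fin n)).erase q)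
      (fun r => rightBit v i j q r = true)
    have hce : (univ.erase q : Finset (Fin n)).card = n - 1 := by simp
    cases hu : u i j q
    · rw [show ((univ.erase q).filter fun r => false ≠ rightBit v i j q r) =
        (univ.erase q).filter fun r => rightBit v i j q r = true from by ext r; simp, endDist]
      omega
    · rw [show ((univ.erase q).filter fun r => true ≠ rightBit v i j q r) =
        (univ.erase q).filter fun r => ¬ rightBit v i j q r = true from by ext r; simp, endDist]
      omega
  have hA : ∀ q i, A q i ≤ q.val := by
    intro q i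
    calc A q i ≤ (Iio q).card := card_le_card fun r hr => by
          rw [mem_filter] at hr; exact mem_Iio.2 hr.2.1
      _ = q.val := Fin.card_Iio q
  have hB : ∀ q i, B q i ≤ n - 1 - q.val := by
    intro q i
    calc B q i ≤ (Ioi q).card := card_le_card fun r hr => by
          rw [mem_filter] at hr; exact mem_Ioi.2 hr.2.1
      _ = n - 1 - q.val := Fin.card_Ioi q
  calc m / 2 * ((m - 1) / 2) * (n / 2 * ((n - 1) / 2))
      = ∑ i : Fin m, min i.val (m - 1 - i.val) * (n / 2 * ((n - 1) / 2)) := by
        rw [← Finset.sum_mul, sum_min_end_fin]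
    _ ≤ ∑ i : Fin m, ∑ q, min i.val (m - 1 - i.val) * endDist (n - 1) (A q i + B q i) := by
        refine Finset.sum_le_sum fun i _ => ?_
        rw [← Finset.mul_sum]
        refine Nat.mul_le_mul_left _ ?_
        have := tournament_bound (fun q r => rightBit v i i q r) (fun q r hqr => by
          rcases lt_or_gt_of_ne hqr with h | h
          · simp [rightBit, h, h.not_gt]
          · simp [rightBit, h, h.not_gt])
        simpa only [outDeg, hcount] using this
    _ = ∑ q, ∑ i : Fin m, min i.val (m - 1 - i.val) * endDist (n - 1) (A q i + B q i) :=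
        Finset.sum_comm
    _ ≤ ∑ q, ∑ i : Fin m, ∑ j : Fin m, if i < j then endDist (n - 1) (A q i + B q j) else 0 := by
        refine Finset.sum_le_sum fun q _ => ?_
        exact endDist_inequality m q.val (n - 1 - q.val) (n - 1) (by omega) (A q) (B q) (hA q) (hB q)
    _ ≤ _ := by
        rw [Finset.sum_comm]
        refine Finset.sum_le_sum fun i _ => ?_
        rw [Finset.sum_comm]
        refine Finset.sum_le_sum fun j _ => ?_
        by_cases h : i < j
        · simp only [h, if_true]
          exact Finset.sum_le_sum fun q _ => hlow i j q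
        · simp [h]

end Vale.Agent.P040
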