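import Mathlib

/-!
Interface for the general word: the parity count of one pair of stars, and what a potential is.
A star is a number `g` (vertices of the other class on its left) and a height order `pos` in which
the right block comes first; inside a block the bit of `r < q` is `pos r < pos q`.
-/

namespace Vale.Agent.P040

open Finset

/-- The star bit of the pair `r < q`. -/
def ordBit {n : ℕ} (pos : Fin n → Fin n) (r q : Fin n) : Bool := decide (pos r < pos q)

/-- A linear star: `pos` is injective and puts the right block before the left one. -/
def IsStar {n : ℕ} (g : ℕ) (pos : Fin n → Fin n) : Prop :=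
  g ≤ n ∧ Function.Injective pos ∧ ∀ l r : Fin n, l.val < g → g ≤ r.val → pos r < pos l

/-- The contribution of the pair `r < q` to the parity count of two stars, `g ≤ h`. -/
def pairTerm {n : ℕ} (g h : ℕ) (v w : Fin n → Fin n → Bool) (z : Fin n → Bool) (r q : Fin n) :
    ℕ :=
  if q.val < g ∨ h ≤ r.val then
    (if z q ≠ v r q then 1 else 0) + (if z r ≠ !w r q then 1 else 0)
  else if r.val < g then
    if h ≤ q.val then (if z q = z r then 1 else 0) else (if z r ≠ !w r q then 1 else 0)
  else if h ≤ q.val then (if z q ≠ v r q then 1 else 0)
  else (if v r q ≠ w r q then 1 else 0)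

/-- The parity count of two stars for given over-bits `z`. -/
def starCount {n : ℕ} (g h : ℕ) (v w : Fin n → Fin n → Bool) (z : Fin n → Bool) : ℕ :=
  ∑ r, ∑ q, if r < q then pairTerm g h v w z r q else 0

/-- A potential: a point of a cube of dimension `d` for each star, with count plus distance at
least `d`. -/
def HasPotential (n d : ℕ) : Prop :=
  ∃ (E : Type) (_ : Fintype E) (_ : DecidableEq E) (X : ℕ → (Fin n → Fin n) → E → Bool),
    Fintype.card E = d ∧
    ∀ g h : ℕ, ∀ pos pos' : Fin n → Fin n, g ≤ h → IsStar g pos → IsStar h pos' →
      ∀ z : Fin n → Bool,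
        d ≤ starCount g h (ordBit pos) (ordBit pos') z +
          (univ.filter fun e => X g pos e ≠ X h pos' e).card

end Vale.Agent.P040
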