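import Vale.Agent.P040.Core
import Vale.Agent.P040.Model

/-!
From a potential to crossings of straight-line drawings of complete bipartite graphs.
-/

namespace Vale.Agent.P040

open Finset

/-- A bit per item separates at most a quarter of the squared number of items. -/
theorem cut_le_quarter {m : ℕ} (b : Fin m → Bool) :
    ∑ i : Fin m, ∑ j : Fin m, (if i < j ∧ b i ≠ b j then 1 else 0 : ℕ) ≤ m * m / 4 := by
  set T := (univ.filter fun i => b i = true).card with hT
  set F := (univ.filter fun i => b i = false).card with hF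
  have hTF : T + F = m := by
    have := Finset.card_filter_add_card_filter_not (s := (univ : Finset (Fin m))) (fun i => b i = true)
    simp only [Bool.not_eq_true, card_univ, Fintype.card_fin] at this
    omega
  have h2 : 2 * ∑ i : Fin m, ∑ j : Fin m, (if i < j ∧ b i ≠ b j then 1 else 0 : ℕ) =
      ∑ i : Fin m, ∑ j : Fin m, (if b i ≠ b j then 1 else 0 : ℕ) := by
    rw [two_mul]
    conv_lhs => arg 2; rw [Finset.sum_comm]
    simp only [← Finset.sum_add_distrib]
    refine Finset.sum_congr rfl fun i _ => Finset.sum_congr rfl fun j _ => ?_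
    rcases lt_trichotomy i j with h | h | h
    · simp [h, h.not_gt]
    · subst h; simp
    · simp [h, h.not_gt, ne_comm]
  have h3 : ∑ i : Fin m, ∑ j : Fin m, (if b i ≠ b j then 1 else 0 : ℕ) = T * F + F * T := by
    have e : ∀ i, ∑ j : Fin m, (if b i ≠ b j then 1 else 0 : ℕ) = if b i = true then F else T := by
      intro i
      rw [Finset.sum_boole]
      cases hb : b i <;> simp [hT, hF]
    simp only [e, Finset.sum_ite, Finset.sum_const, smul_eq_mul, Bool.not_eq_true]
    rw [← hT, ← hF]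
  have h4 : 4 * (T * F) ≤ m * m := by nlinarith [sq_nonneg ((T : ℤ) - F)]
  have := Nat.div_le_div_right (c := 4) h4
  rw [Nat.mul_div_cancel_left _ (by norm_num : 0 < 4)] at this
  rw [h3, Nat.mul_comm F T] at h2
  linarith

theorem sum_lt_pairs (m : ℕ) :
    2 * ∑ i : Fin m, ∑ j : Fin m, (if i < j then 1 else 0 : ℕ) + m = m * m := by
  rw [two_mul]
  conv_lhs => arg 1; arg 2; rw [Finset.sum_comm]
  simp only [← Finset.sum_add_distrib]
  have e : ∀ i : Fin m, ∑ j : Fin m, ((if i < j then 1 else 0) + (if j < i then 1 else 0) : ℕ) + 1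
      = m := by
    intro i
    rw [Finset.sum_add_distrib, Finset.sum_boole, Finset.sum_boole]
    simp only [Finset.filter_lt_eq_Ioi, Finset.filter_gt_eq_Iio, Fin.card_Ioi, Fin.card_Iio,
      Nat.cast_id]
    omega
  calc _ = ∑ i : Fin m, (∑ j : Fin m, ((if i < j then 1 else 0) + (if j < i then 1 else 0) : ℕ)
        + 1) := by simp [Finset.sum_add_distrib]
    _ = ∑ i : Fin m, m := Finset.sum_congr rfl fun i _ => e i
    _ = m * m := by simp

theorem quarter_split (m : ℕ) :
    m / 2 * ((m - 1) / 2) + m * m / 4 =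
      ∑ i : Fin m, ∑ j : Fin m, (if i < j then 1 else 0 : ℕ) := by
  have h := sum_lt_pairs m
  generalize (∑ i : Fin m, ∑ j : Fin m, (if i < j then 1 else 0 : ℕ)) = S at h
  rcases Nat.even_or_odd' m with ⟨k, rfl | rfl⟩
  · rcases k with _ | k
    · simp at h ⊢; omega
    · rw [show 2 * (k + 1) / 2 = k + 1 from by omega, show (2 * (k + 1) - 1) / 2 = k from by omega,
        show 2 * (k + 1) * (2 * (k + 1)) / 4 = (k + 1) * (k + 1) from by
          rw [show 2 * (k + 1) * (2 * (k + 1)) = 4 * ((k + 1) * (k + 1)) from by ring]; simp]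
      nlinarith
  · rw [show (2 * k + 1) / 2 = k from by omega, show (2 * k + 1 - 1) / 2 = k from by omega,
      show (2 * k + 1) * (2 * k + 1) / 4 = k * k + k from by
        rw [show (2 * k + 1) * (2 * k + 1) = 4 * (k * k + k) + 1 from by ring]; omega]
    nlinarith

/-- A potential bounds the total count over all pairs. -/
theorem sum_bound_of_potential {n d m : ℕ} (hpot : HasPotential n d) (g : Fin m → ℕ)
    (pos : Fin m → Fin n → Fin n) (hg : Monotone g) (hs : ∀ i, IsStar (g i) (pos i))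
    (z : Fin m → Fin m → Fin n → Bool) :
    m / 2 * ((m - 1) / 2) * d ≤ ∑ i : Fin m, ∑ j : Fin m,
      if i < j then starCount (g i) (g j) (ordBit (pos i)) (ordBit (pos j)) (z i j) else 0 := by
  obtain ⟨E, _, _, X, hE, hX⟩ := hpot
  set cnt : Fin m → Fin m → ℕ := fun i j =>
    starCount (g i) (g j) (ordBit (pos i)) (ordBit (pos j)) (z i j) with hcnt
  have h1 : ∀ i j : Fin m, (if i < j then d else 0) ≤ (if i < j then cnt i j else 0) +
      ∑ e, if i < j ∧ X (g i) (pos i) e ≠ X (g j) (pos j) e then 1 else 0 := by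
    intro i j
    by_cases h : i < j
    · have := hX (g i) (g j) (pos i) (pos j) (hg h.le) (hs i) (hs j) (z i j)
      simp only [h, if_true, true_and, Finset.sum_boole, Nat.cast_id, hcnt]
      exact this
    · simp [h]
  have h2 : ∑ i : Fin m, ∑ j : Fin m, ∑ e,
      (if i < j ∧ X (g i) (pos i) e ≠ X (g j) (pos j) e then 1 else 0 : ℕ) ≤ d * (m * m / 4) := by
    calc ∑ i : Fin m, ∑ j : Fin m, ∑ e,
        (if i < j ∧ X (g i) (pos i) e ≠ X (g j) (pos j) e then 1 else 0 : ℕ)
        = ∑ e, ∑ i : Fin m, ∑ j : Fin m,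
          (if i < j ∧ X (g i) (pos i) e ≠ X (g j) (pos j) e then 1 else 0 : ℕ) := by
          rw [Finset.sum_comm (γ := E)]
          exact Finset.sum_congr rfl fun i _ => Finset.sum_comm
      _ ≤ ∑ _e : E, m * m / 4 :=
          Finset.sum_le_sum fun e _ => cut_le_quarter (fun i => X (g i) (pos i) e)
      _ = d * (m * m / 4) := by simp [hE]
  have h3 := Finset.sum_le_sum (s := univ) fun i _ =>
    Finset.sum_le_sum (s := univ) fun j _ => h1 i j
  simp only [Finset.sum_add_distrib] at h3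
  have h4 : ∑ i : Fin m, ∑ j : Fin m, (if i < j then d else 0) =
      (m / 2 * ((m - 1) / 2) + m * m / 4) * d := by
    rw [quarter_split, Finset.sum_mul]
    refine Finset.sum_congr rfl fun i _ => ?_
    rw [Finset.sum_mul]
    exact Finset.sum_congr rfl fun j _ => by by_cases h : i < j <;> simp [h]
  rw [h4, add_mul] at h3
  rw [mul_comm (m * m / 4) d] at h3
  simp only [hcnt] at h3
  omega

/-- Height of `x` on the line through `a` and `b`. -/
noncomputable def lineAt (a b : ℝ × ℝ) (x : ℝ) : ℝ :=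
  a.2 + (b.2 - a.2) / (b.1 - a.1) * (x - a.1)

theorem lineAt_left (a b : ℝ × ℝ) : lineAt a b a.1 = a.2 := by simp [lineAt]

theorem lineAt_right (a b : ℝ × ℝ) (h : a.1 ≠ b.1) : lineAt a b b.1 = b.2 := by
  have : b.1 - a.1 ≠ 0 := sub_ne_zero.2 h.symm
  rw [lineAt]
  field_simp
  ring

theorem mem_openSegment_of_lineAt (a b : ℝ × ℝ) (x : ℝ)
    (hx : (a.1 < x ∧ x < b.1) ∨ (b.1 < x ∧ x < a.1)) :
    ((x, lineAt a b x) : ℝ × ℝ) ∈ openSegment ℝ a b := by
  have h0 : b.1 - a.1 ≠ 0 := by rcases hx with ⟨h1, h2⟩ | ⟨h1, h2⟩ <;> intro h <;> linarith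
  set t := (x - a.1) / (b.1 - a.1) with ht
  have ht0 : 0 < t := by
    rcases hx with ⟨h1, h2⟩ | ⟨h1, h2⟩
    · exact div_pos (by linarith) (by linarith)
    · exact div_pos_of_neg_of_neg (by linarith) (by linarith)
  have ht1 : t < 1 := by
    rcases hx with ⟨h1, h2⟩ | ⟨h1, h2⟩
    · rw [ht, div_lt_one (by linarith)]; linarith
    · rw [ht, div_lt_one_of_neg (by linarith)]; linarith
  refine ⟨1 - t, t, by linarith, ht0, by ring, ?_⟩
  ext
  · simp only [Prod.fst_add, Prod.smul_fst, smul_eq_mul]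
    rw [ht]; field_simp; ring
  · simp only [Prod.snd_add, Prod.smul_snd, smul_eq_mul, lineAt]
    rw [ht]; field_simp; ring

/-- Opposite orders of two lines at two abscissae give a common point strictly between. -/
theorem lineAt_meet (a b c e : ℝ × ℝ) (L R : ℝ) (hLR : L < R)
    (h1 : min a.1 b.1 ≤ L) (h2 : min c.1 e.1 ≤ L) (h3 : R ≤ max a.1 b.1) (h4 : R ≤ max c.1 e.1)
    (nL : lineAt a b L ≠ lineAt c e L) (nR : lineAt a b R ≠ lineAt c e R)
    (hne : decide (lineAt c e L < lineAt a b L) ≠ decide (lineAt c e R < lineAt a b R)) :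
    ∃ P, P ∈ openSegment ℝ a b ∧ P ∈ openSegment ℝ c e := by
  have c1 : ContinuousOn (fun x => lineAt a b x - lineAt c e x) (Set.Icc L R) := by
    refine Continuous.continuousOn ?_
    unfold lineAt
    fun_prop
  have fin : ∀ x ∈ Set.Ioo L R, lineAt a b x - lineAt c e x = 0 →
      ∃ P, P ∈ openSegment ℝ a b ∧ P ∈ openSegment ℝ c e := by
    intro x hx hx0
    refine ⟨(x, lineAt a b x), mem_openSegment_of_lineAt a b x ?_, ?_⟩
    · have u := h1.trans_lt hx.1
      have w := hx.2.trans_le h3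
      rcases le_total a.1 b.1 with h | h
      · rw [min_eq_left h] at u; rw [max_eq_right h] at w; exact Or.inl ⟨u, w⟩
      · rw [min_eq_right h] at u; rw [max_eq_left h] at w; exact Or.inr ⟨u, w⟩
    · rw [sub_eq_zero.1 hx0]
      refine mem_openSegment_of_lineAt c e x ?_
      have u := h2.trans_lt hx.1
      have w := hx.2.trans_le h4
      rcases le_total c.1 e.1 with h | h
      · rw [min_eq_left h] at u; rw [max_eq_right h] at w; exact Or.inl ⟨u, w⟩
      · rw [min_eq_right h] at u; rw [max_eq_left h] at w; exact Or.inr ⟨u, w⟩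
  rcases nL.lt_or_gt with a' | a' <;> rcases nR.lt_or_gt with b' | b'
  · exact absurd hne (by simp [a'.not_gt, b'.not_gt])
  · obtain ⟨x, hx, hx0⟩ := intermediate_value_Ioo hLR.le c1
      (show (0 : ℝ) ∈ Set.Ioo _ _ from ⟨sub_neg.2 a', sub_pos.2 b'⟩)
    exact fin x hx hx0
  · obtain ⟨x, hx, hx0⟩ := intermediate_value_Ioo' hLR.le c1
      (show (0 : ℝ) ∈ Set.Ioo _ _ from ⟨sub_neg.2 b', sub_pos.2 a'⟩)
    exact fin x hx hx0
  · exact absurd hne (by simp [a', b'])

theorem symm_sort_lt {n : ℕ} (key : Fin n → ℝ) (hk : Function.Injective key) (r q : Fin n) :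
    (Tuple.sort key).symm r < (Tuple.sort key).symm q ↔ key r < key q := by
  have hm : StrictMono (key ∘ Tuple.sort key) :=
    (Tuple.monotone_sort key).strictMono_of_injective (hk.comp (Tuple.sort key).injective)
  rw [← hm.lt_iff_lt]
  simp

/-- Ordered choices `(q, r)` whose two edges meet in their interiors. -/
noncomputable def meetPairs {n : ℕ} (a c : ℝ × ℝ) (pB : Fin n → ℝ × ℝ) : ℕ :=
  Set.ncard {e : Fin n × Fin n | e.1 ≠ e.2 ∧
    ∃ P, P ∈ openSegment ℝ a (pB e.1) ∧ P ∈ openSegment ℝ c (pB e.2)}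

/-- The number of crossing pairs of independent edges. -/
noncomputable def crossPairs {m n : ℕ} (pA : Fin m → ℝ × ℝ) (pB : Fin n → ℝ × ℝ) : ℕ :=
  ∑ i : Fin m, ∑ j : Fin m, if i < j then meetPairs (pA i) (pA j) pB else 0

/-- Vertices are distinct and no edge passes through a vertex. -/
def IsDrawing {m n : ℕ} (pA : Fin m → ℝ × ℝ) (pB : Fin n → ℝ × ℝ) : Prop :=
  Function.Injective pA ∧ Function.Injective pB ∧ (∀ i k, pA i ≠ pB k) ∧
    (∀ i k j, pA j ∉ openSegment ℝ (pA i) (pB k)) ∧ (∀ i k l, pB l ∉ openSegment ℝ (pA i) (pB k))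

theorem crossPairs_perm {m n : ℕ} (pA : Fin m → ℝ × ℝ) (pB : Fin n → ℝ × ℝ)
    (σ : Equiv.Perm (Fin m)) (τ : Equiv.Perm (Fin n)) :
    crossPairs (pA ∘ σ) (pB ∘ τ) = crossPairs pA pB := by
  have hτ : ∀ a c, meetPairs a c (pB ∘ τ) = meetPairs a c pB := by
    intro a c
    unfold meetPairs
    rw [show {e : Fin n × Fin n | e.1 ≠ e.2 ∧ ∃ P, P ∈ openSegment ℝ a (pB e.1) ∧
        P ∈ openSegment ℝ c (pB e.2)} = (fun e : Fin n × Fin n => (τ e.1, τ e.2)) ''
        {e : Fin n × Fin n | e.1 ≠ e.2 ∧ ∃ P, P ∈ openSegment ℝ a ((pB ∘ τ) e.1) ∧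
        P ∈ openSegment ℝ c ((pB ∘ τ) e.2)} from ?_, Set.ncard_image_of_injective]
    · intro x y h
      simp only [Prod.mk.injEq, EmbeddingLike.apply_eq_iff_eq] at h
      exact Prod.ext h.1 h.2
    · ext e
      simp only [Set.mem_image, Function.comp_apply]
      constructor
      · rintro ⟨hne, hP⟩
        exact ⟨(τ.symm e.1, τ.symm e.2), ⟨by simpa using hne, by simpa using hP⟩, by simp⟩
      · rintro ⟨x, ⟨hne, hP⟩, rfl⟩
        exact ⟨fun h => hne (τ.injective h), hP⟩
  have hsymm : ∀ a c, meetPairs a c pB = meetPairs c a pB := by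
    intro a c
    unfold meetPairs
    rw [← Set.ncard_image_of_injective _ Prod.swap_injective]
    congr 1
    ext e
    simp only [Set.mem_image]
    constructor
    · rintro ⟨x, ⟨hne, P, h1, h2⟩, rfl⟩
      exact ⟨hne.symm, P, h2, h1⟩
    · rintro ⟨hne, P, h1, h2⟩
      exact ⟨(e.2, e.1), ⟨hne.symm, P, h2, h1⟩, rfl⟩
  have dbl : ∀ p : Fin m → ℝ × ℝ, 2 * crossPairs p pB =
      ∑ i : Fin m, ∑ j : Fin m, if i ≠ j then meetPairs (p i) (p j) pB else 0 := by
    intro p
    unfold crossPairs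
    rw [two_mul]
    conv_lhs => arg 2; rw [Finset.sum_comm]
    simp only [← Finset.sum_add_distrib]
    refine Finset.sum_congr rfl fun i _ => Finset.sum_congr rfl fun j _ => ?_
    rcases lt_trichotomy i j with h | h | h
    · simp [h, h.not_gt, h.ne]
    · subst h; simp
    · simp [h, h.not_gt, h.ne', hsymm]
  have h1 : crossPairs (pA ∘ σ) (pB ∘ τ) = crossPairs (pA ∘ σ) pB := by
    unfold crossPairs
    simp only [hτ]
  have h2 := dbl (pA ∘ σ)
  have h3 := dbl pA
  have h4 : (∑ i : Fin m, ∑ j : Fin m,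
      if i ≠ j then meetPairs ((pA ∘ σ) i) ((pA ∘ σ) j) pB else 0) =
      ∑ i : Fin m, ∑ j : Fin m, if i ≠ j then meetPairs (pA i) (pA j) pB else 0 := by
    refine Fintype.sum_equiv σ _ _ fun i => Fintype.sum_equiv σ _ _ fun j => ?_
    simp [σ.injective.eq_iff]
  omega

end Vale.Agent.P040
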