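import Vale.Agent.P040.Core

/-!
The parity bound when one class avoids the strip of the other: two outer blocks, the right one
taken in reversed order with the roles of the two cut points exchanged.
-/

namespace Vale.Agent.P040

open Finset

/-- Distance of two points of the circle of length `N`. -/
def circ (N x y : ℕ) : ℕ := endDist N (max x y - min x y)

theorem neq_comm (a b : Bool) : neq a b = neq b a := by
  cases a <;> cases b <;> rfl

theorem sum_circ (N x y : ℕ) (hx : x ≤ N) (hy : y ≤ N) :
    ∑ s ∈ range N, neq (arc N s x) (arc N s y) = 2 * (circ N x y : ℤ) := by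
  rcases le_total x y with h | h
  · rw [sum_arc N x y h hy, circ, max_eq_right h, min_eq_left h]
  · rw [circ, max_eq_left h, min_eq_right h, ← sum_arc N y x h hx]
    exact Finset.sum_congr rfl fun s _ => neq_comm _ _

/-- The weighted diagonal is at most the off-diagonal sum for points on a circle. -/
theorem circ_inequality (m N : ℕ) (P Q : Fin m → ℕ) (hP : ∀ i, P i ≤ N) (hQ : ∀ i, Q i ≤ N) :
    ∑ i : Fin m, min i.val (m - 1 - i.val) * circ N (P i) (Q i) ≤
      ∑ i : Fin m, ∑ j : Fin m, if i < j then circ N (P i) (Q j) else 0 := by
  have dist : ∀ i j : Fin m, (2 : ℤ) * circ N (P i) (Q j) =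
      ∑ s ∈ range N, neq (arc N s (P i)) (arc N s (Q j)) :=
    fun i j => (sum_circ N _ _ (hP i) (hQ j)).symm
  have key := Finset.sum_le_sum (s := range N)
    (fun s _ => cut_inequality m (fun i => arc N s (P i)) (fun i => arc N s (Q i)))
  simp only [cutDiag, cutPairs] at key
  rw [Finset.sum_comm] at key
  conv_rhs at key => rw [Finset.sum_comm]
  simp only [← Finset.mul_sum, ← dist] at key
  have conv2 : ∀ i : Fin m, (∑ s ∈ range N, ∑ j : Fin m,
      if i < j then neq (arc N s (P i)) (arc N s (Q j)) else 0) =
      ∑ j : Fin m, if i < j then (2 : ℤ) * circ N (P i) (Q j) else 0 := by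
    intro i
    rw [Finset.sum_comm]
    refine Finset.sum_congr rfl fun j _ => ?_
    by_cases h : i < j <;> simp [h, dist]
  simp only [conv2] at key
  zify
  have l : ∑ i : Fin m, ((min i.val (m - 1 - i.val) : ℕ) : ℤ) * (2 * circ N (P i) (Q i)) =
      2 * ∑ i : Fin m, ((min i.val (m - 1 - i.val) : ℕ) : ℤ) * circ N (P i) (Q i) := by
    rw [Finset.mul_sum]
    exact Finset.sum_congr rfl fun i _ => by ring
  have r : (∑ i : Fin m, ∑ j : Fin m, if i < j then (2 : ℤ) * circ N (P i) (Q j) else 0) =
      2 * ∑ i : Fin m, ∑ j : Fin m, ((if i < j then circ N (P i) (Q j) else 0 : ℕ) : ℤ) := by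
    simp only [Finset.mul_sum]
    refine Finset.sum_congr rfl fun i _ => Finset.sum_congr rfl fun j _ => ?_
    by_cases h : i < j <;> simp [h]
  rw [l, r] at key
  push_cast at key ⊢
  linarith

/-- Position in the order in which the right block is reversed. -/
def blockPos {m : ℕ} (k : ℕ) (i : Fin m) : Fin m :=
  if h : i.val < k ∨ m ≤ k then i else ⟨k + (m - 1 - i.val), by
    have := i.isLt
    omega⟩

theorem blockPos_lt {m k : ℕ} {i : Fin m} (h : i.val < k) : (blockPos k i).val = i.val := by
  simp [blockPos, h]

theorem blockPos_ge {m k : ℕ} {i : Fin m} (h : k ≤ i.val) :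
    (blockPos k i).val = k + (m - 1 - i.val) := by
  have := i.isLt
  rw [blockPos, dif_neg (by omega)]

theorem blockPos_invol {m : ℕ} (k : ℕ) : Function.Involutive (blockPos k : Fin m → Fin m) := by
  intro i
  apply Fin.ext
  have := i.isLt
  rcases lt_or_ge i.val k with h | h
  · rw [blockPos_lt (by rw [blockPos_lt h]; exact h), blockPos_lt h]
  · rw [blockPos_ge (by rw [blockPos_ge h]; omega), blockPos_ge h]
    omega

/-- Crossing count bound for a pair, at the B-vertex `q`. -/
def pairCost {m n : ℕ} (k : ℕ) (u : Fin m → Fin m → Fin n → Bool)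
    (v : Fin m → Fin n → Fin n → Bool) (i j : Fin m) (q : Fin n) : ℕ :=
  ((univ.erase q).filter fun r => if (i.val < k ↔ j.val < k) then u i j q ≠ rightBit v i j q r
    else r < q ∧ v i r q ≠ v j r q).card

/-- The parity lower bound with two outer blocks. -/
theorem parity_strip {m n : ℕ} (k : ℕ) (u : Fin m → Fin m → Fin n → Bool)
    (v : Fin m → Fin n → Fin n → Bool) :
    m / 2 * ((m - 1) / 2) * (n / 2 * ((n - 1) / 2)) ≤
      ∑ i : Fin m, ∑ j : Fin m, if i < j then ∑ q, pairCost k u v i j q else 0 := by
  set lo : Fin m → Fin n → ℕ := fun i q => countBefore (fun r => v i r q) q with hlo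
  set hi : Fin m → Fin n → ℕ := fun i q => countAfter (fun r => v i q r) q with hhi
  have hcount : ∀ i j q,
      ((univ.erase q).filter fun r => rightBit v i j q r = true).card = lo i q + hi j q := by
    intro i j q
    rw [hlo, hhi]
    simp only [countBefore, countAfter]
    rw [← card_union_of_disjoint]
    · congr 1
      ext r
      simp only [mem_filter, mem_erase, mem_univ, and_true, mem_union, rightBit]
      rcases lt_trichotomy r q with h | h | h
      · simp [h, h.ne, h.not_gt]
      · simp [h]
      · simp [h, h.ne', h.not_gt]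
    · rw [disjoint_filter]
      intro r _ h1 h2
      exact lt_asymm h1.1 h2.1
  have hlo' : ∀ i q, lo i q ≤ q.val := by
    intro i q
    calc lo i q ≤ (Iio q).card := card_le_card fun r hr => by
          rw [mem_filter] at hr; exact mem_Iio.2 hr.2.1
      _ = q.val := Fin.card_Iio q
  have hhi' : ∀ i q, hi i q ≤ n - 1 - q.val := by
    intro i q
    calc hi i q ≤ (Ioi q).card := card_le_card fun r hr => by
          rw [mem_filter] at hr; exact mem_Ioi.2 hr.2.1
      _ = n - 1 - q.val := Fin.card_Ioi q
  set P : Fin m → Fin n → ℕ := fun i q => if i.val < k then lo i q else n - 1 - hi i q with hP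
  set Q : Fin m → Fin n → ℕ := fun i q => if i.val < k then n - 1 - hi i q else lo i q with hQ
  have hPN : ∀ i q, P i q ≤ n - 1 := by
    intro i q
    have := hlo' i q
    have := q.isLt
    simp only [hP]
    split_ifs <;> omega
  have hQN : ∀ i q, Q i q ≤ n - 1 := by
    intro i q
    have := hlo' i q
    have := q.isLt
    simp only [hQ]
    split_ifs <;> omega
  have circ_eq : ∀ i j q, circ (n - 1) (lo i q) (n - 1 - hi j q) =
      endDist (n - 1) (lo i q + hi j q) ∧
      circ (n - 1) (n - 1 - hi j q) (lo i q) = endDist (n - 1) (lo i q + hi j q) := by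
    intro i j q
    have := hlo' i q
    have := hhi' j q
    have := q.isLt
    simp only [circ, endDist]
    omega
  have hsame : ∀ i j q, (i.val < k ↔ j.val < k) →
      endDist (n - 1) (lo i q + hi j q) ≤ pairCost k u v i j q := by
    intro i j q hij
    have ht := hcount i j q
    have hsum := Finset.card_filter_add_card_filter_not (s := (univ : Finset (Fin n)).erase q)
      (fun r => rightBit v i j q r = true)
    have hce : (univ.erase q : Finset (Fin n)).card = n - 1 := by simp
    simp only [pairCost, if_pos hij]
    cases hu : u i j q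
    · rw [show ((univ.erase q).filter fun r => false ≠ rightBit v i j q r) =
        (univ.erase q).filter fun r => rightBit v i j q r = true from by ext r; simp, endDist]
      omega
    · rw [show ((univ.erase q).filter fun r => true ≠ rightBit v i j q r) =
        (univ.erase q).filter fun r => ¬ rightBit v i j q r = true from by ext r; simp, endDist]
      omega
  have hmixed : ∀ i j q, ¬ (i.val < k ↔ j.val < k) →
      circ (n - 1) (lo i q) (lo j q) ≤ pairCost k u v i j q := by
    intro i j q hij
    simp only [pairCost, if_neg hij]
    have h1 : ∀ a b : Fin m, lo a q ≤ lo b q +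
        ((univ.erase q).filter fun r => r < q ∧ v a r q ≠ v b r q).card := by
      intro a b
      simp only [hlo, countBefore]
      refine le_trans (card_le_card ?_) (card_union_le _ _)
      intro r hr
      simp only [mem_filter] at hr
      simp only [mem_union, mem_filter]
      cases hv : v b r q
      · exact Or.inr ⟨hr.1, hr.2.1, by simp [hr.2.2]⟩
      · exact Or.inl ⟨hr.1, hr.2.1, rfl⟩
    have e : ((univ.erase q).filter fun r => r < q ∧ v j r q ≠ v i r q) =
        (univ.erase q).filter fun r => r < q ∧ v i r q ≠ v j r q := by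
      ext r
      simp [ne_comm]
    have a := h1 i j
    have b := h1 j i
    rw [e] at b
    simp only [circ, endDist]
    omega
  have hdiag : ∀ i, n / 2 * ((n - 1) / 2) ≤ ∑ q, circ (n - 1) (P i q) (Q i q) := by
    intro i
    have := tournament_bound (fun q r => rightBit v i i q r) (fun q r hqr => by
      rcases lt_or_gt_of_ne hqr with h | h
      · simp [rightBit, h, h.not_gt]
      · simp [rightBit, h, h.not_gt])
    refine le_trans (by simpa only [outDeg, hcount] using this) (Finset.sum_le_sum fun q _ => ?_)
    rcases circ_eq i i q with ⟨e1, e2⟩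
    simp only [hP, hQ]
    split_ifs
    · exact e1.ge
    · exact e2.ge
  set π : Equiv.Perm (Fin m) := (blockPos_invol k).toPerm
  have hππ : ∀ i, π (π i) = i := fun i => blockPos_invol k i
  have reindex : ∀ q, (∑ i : Fin m, ∑ j : Fin m,
      if i < j then circ (n - 1) (P (π i) q) (Q (π j) q) else 0) =
      ∑ i : Fin m, ∑ j : Fin m, if i < j then
        (if π i < π j then circ (n - 1) (P i q) (Q j q) else circ (n - 1) (P j q) (Q i q)) else 0 := by
    intro q
    have h1 : (∑ i : Fin m, ∑ j : Fin m,
        if i < j then circ (n - 1) (P (π i) q) (Q (π j) q) else 0) =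
        ∑ i : Fin m, ∑ j : Fin m,
          if π i < π j then circ (n - 1) (P i q) (Q j q) else 0 := by
      rw [← Equiv.sum_comp π]
      refine Finset.sum_congr rfl fun i _ => ?_
      rw [← Equiv.sum_comp π]
      refine Finset.sum_congr rfl fun j _ => ?_
      rw [hππ i, hππ j]
    rw [h1]
    have h2 : (∑ i : Fin m, ∑ j : Fin m, if π i < π j then circ (n - 1) (P i q) (Q j q) else 0) =
        (∑ i : Fin m, ∑ j : Fin m,
          if i < j ∧ π i < π j then circ (n - 1) (P i q) (Q j q) else 0) +
        ∑ i : Fin m, ∑ j : Fin m,
          if j < i ∧ π i < π j then circ (n - 1) (P i q) (Q j q) else 0 := by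
      simp only [← Finset.sum_add_distrib]
      refine Finset.sum_congr rfl fun i _ => Finset.sum_congr rfl fun j _ => ?_
      rcases lt_trichotomy i j with h | h | h
      · simp [h, h.not_gt]
      · subst h; simp
      · simp [h, h.not_gt]
    rw [h2]
    conv_lhs => arg 2; rw [Finset.sum_comm]
    simp only [← Finset.sum_add_distrib]
    refine Finset.sum_congr rfl fun i _ => Finset.sum_congr rfl fun j _ => ?_
    by_cases h : i < j
    · rcases lt_or_gt_of_ne (π.injective.ne h.ne) with h' | h'
      · simp [h, h', h'.not_gt]
      · simp [h, h', h'.not_gt]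
    · simp [h]
  calc m / 2 * ((m - 1) / 2) * (n / 2 * ((n - 1) / 2))
      = ∑ i : Fin m, min i.val (m - 1 - i.val) * (n / 2 * ((n - 1) / 2)) := by
        rw [← Finset.sum_mul, sum_min_end_fin]
    _ ≤ ∑ i : Fin m, ∑ q, min i.val (m - 1 - i.val) * circ (n - 1) (P (π i) q) (Q (π i) q) := by
        refine Finset.sum_le_sum fun i _ => ?_
        rw [← Finset.mul_sum]
        exact Nat.mul_le_mul_left _ (hdiag (π i))
    _ = ∑ q, ∑ i : Fin m, min i.val (m - 1 - i.val) * circ (n - 1) (P (π i) q) (Q (π i) q) :=
        Finset.sum_comm
    _ ≤ ∑ q, ∑ i : Fin m, ∑ j : Fin m, if i < j then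
        (if π i < π j then circ (n - 1) (P i q) (Q j q) else circ (n - 1) (P j q) (Q i q)) else 0 := by
        refine Finset.sum_le_sum fun q _ => ?_
        rw [← reindex q]
        exact circ_inequality m (n - 1) (fun i => P (π i) q) (fun i => Q (π i) q)
          (fun i => hPN _ _) (fun i => hQN _ _)
    _ ≤ _ := by
        rw [Finset.sum_comm]
        refine Finset.sum_le_sum fun i _ => ?_
        rw [Finset.sum_comm]
        refine Finset.sum_le_sum fun j _ => ?_
        by_cases h : i < j
        · simp only [h, if_true]
          refine Finset.sum_le_sum fun q _ => ?_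
          have hv : i.val < j.val := h
          have hjm := j.isLt
          have ltiff : π i < π j ↔ (i.val < k ∨ (i.val < k ∧ j.val < k)) := by
            show (blockPos k i).val < (blockPos k j).val ↔ _
            rcases lt_or_ge i.val k with a | a <;> rcases lt_or_ge j.val k with b | b
            · rw [blockPos_lt a, blockPos_lt b]; omega
            · rw [blockPos_lt a, blockPos_ge b]; omega
            · omega
            · rw [blockPos_ge a, blockPos_ge b]; omega
          rcases lt_or_ge i.val k with a | a
          · rw [if_pos (ltiff.2 (Or.inl a))]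
            simp only [hP, hQ, if_pos a]
            split_ifs with b
            · exact (circ_eq i j q).1 ▸ hsame i j q (iff_of_true a b)
            · exact hmixed i j q (by simp [a, b])
          · rw [if_neg (fun hh => by have := ltiff.1 hh; omega)]
            have b : ¬ j.val < k := by omega
            simp only [hP, hQ, if_neg b, if_neg a.not_gt]
            exact (circ_eq i j q).2 ▸ hsame i j q (iff_of_false a.not_gt b)
        · simp [h]

end Vale.Agent.P040
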